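import Vale.Agent.P251.H.Shift
import Mathlib.CategoryTheory.Monoidal.End

/-!
# P241G: the shift by `ℤ` defined by an autoequivalence
-/

open CategoryTheory MonoidalCategory

universe v u

namespace Vale.Agent.P241GT

open P251.H

variable {C : Type u} [Category.{v} C]

theorem cast_app (I : @InvObj (C ⥤ C) _ (endofunctorMonoidalCategory C)) {a b : ℤ} (h : a = b)
    (X : C) (h') : letI := endofunctorMonoidalCategory C
    (I.cast h).hom.app X = eqToHom h' := by
  subst h
  rfl

/-- the powers of an invertible endofunctor -/
noncomputable def core (I : @InvObj (C ⥤ C) _ (endofunctorMonoidalCategory C)) :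
    ShiftMkCore C ℤ :=
  letI := endofunctorMonoidalCategory C
  { F := fun n => I.pow n
    zero := Iso.refl _
    add := fun n m => (I.mul n m).symm
    assoc_hom_app := fun a b c X => by
      have h := I.mul_assoc a b c
      have h' : (I.mul (a + b) c).inv ≫ (I.mul a b).inv ▷ I.pow c =
          (I.cast (add_assoc a b c)).hom ≫ (I.mul a (b + c)).inv ≫ I.pow a ◁ (I.mul b c).inv ≫
            (α_ _ _ _).inv := by
        rw [← cancel_epi (I.mul (a + b) c).hom, ← cancel_epi ((I.mul a b).hom ▷ I.pow c)]
        rw [reassoc_of% h]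
        simp
      have h2 := congrArg (fun t => NatTrans.app t X) h'
      simp only [NatTrans.comp_app] at h2
      rw [cast_app I _ X (by rw [add_assoc])] at h2
      refine h2.trans ?_
      congr 2
      exact Category.comp_id _
    zero_add_hom_app := fun n X => by
      have h2 := congrArg (fun t => NatTrans.app t X) (I.zero_mul_inv n)
      simp only [NatTrans.comp_app] at h2
      rw [cast_app I _ X (by rw [zero_add])] at h2
      refine h2.trans ?_
      congr 1
      exact ((I.pow n).map_id X).symm
    add_zero_hom_app := fun n X => by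
      have h2 := congrArg (fun t => NatTrans.app t X) (I.mul_zero_inv n)
      simp only [NatTrans.comp_app] at h2
      rw [cast_app I _ X (by rw [add_zero])] at h2
      exact h2 }

theorem exists_shift (E E' : C ⥤ C) (a : E ⋙ E' ≅ 𝟭 C) (b : E' ⋙ E ≅ 𝟭 C) :
    ∃ _ : HasShift C ℤ, Nonempty (shiftFunctor C (1 : ℤ) ≅ E) :=
  letI := endofunctorMonoidalCategory C
  ⟨hasShiftMk C ℤ (core ⟨E, E', a, b⟩), ⟨Functor.leftUnitor E⟩⟩

end Vale.Agent.P241GT
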