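import Vale.Agent.P241GR.A
import Vale.Agent.P241GT.Sh
import Vale.Agent.P251.H.Cof.Tri

/-!
# P241G, row A3: the triangulation of the localization of a weak stabilisation input
-/

open CategoryTheory MonoidalCategory Limits Pretriangulated ZeroObject

universe v' u u'

namespace Vale.Agent.P241GT

open P251.H P251.H.GS P251.H.GS.StabInput P251.G P251.G.LC P251.H.LP P241GR

variable {M : Type u} [Category.{0} M] [MonoidalCategory M] [SymmetricCategory M]
  [MonoidalClosed M] [HasZeroMorphisms M] [HasColimitsOfSize.{0, 0} M] [GS.StabInput M]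

theorem isPushout_cyl (X : M) :
    IsPushout (inc 1 X) (0 : X ⟶ (0 : M)) (cylCone X) (0 : (0 : M) ⟶ X ⊗ CI M) := by
  have h := isPushout_tensor X (injective_point (X := II) 1)
    (isPushout_endColl LC.isZero_empty 0 0)
  have hZ : IsZero (X ⊗ (J M).obj (LC.of Empty)) := isZero_tensor_right X isZero_empty
  refine h.of_iso ((whiskerLeftIso X (Functor.Monoidal.εIso (J M)).symm) ≪≫ ρ_ X) (Iso.refl _)
    hZ.isoZero (Iso.refl _) ?_ ((isZero_zero M).eq_of_tgt _ _) ?_ (hZ.eq_of_src _ _)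
  · simp [inc_def, ← MonoidalCategory.whiskerLeft_comp]
  · simp [cylCone]

section

variable (W : MorphismProperty M) [GoodW W]

/-- the cone -/
noncomputable def coneIso (X : M) : letI := cofCatM W; X ⊗ CI M ≅ CofCat.Cone.obj X :=
  letI := cofCatM W
  (isPushout_cyl X).isoIsPushout _ _ (CofCat.isPushout_cylCone X)

theorem cyl_coneIso (X : M) : letI := cofCatM W
    cylCone X ≫ (coneIso W X).hom = CofCat.cylCone.app X :=
  letI := cofCatM W
  (isPushout_cyl X).inl_isoIsPushout_hom _ _ (CofCat.isPushout_cylCone X)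

theorem base_coneIso (X : M) : letI := cofCatM W
    coneBase X ≫ (coneIso W X).hom = CofCat.cin X := by
  rw [← inc_zero_cylCone, Category.assoc, cyl_coneIso]
  rfl

theorem coneIso_nat {X Y : M} (f : X ⟶ Y) : letI := cofCatM W
    f ▷ CI M ≫ (coneIso W Y).hom = (coneIso W X).hom ≫ CofCat.Cone.map f := by
  let _ := cofCatM W
  refine (isPushout_cyl X).hom_ext ?_ ((isZero_zero M).eq_of_src _ _)
  rw [← cylCone_naturality_assoc, cyl_coneIso, ← Category.assoc, cyl_coneIso]
  exact CofCat.cylCone.naturality f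

theorem isPushout_cin (X : M) : letI := cofCatM W
    IsPushout (CofCat.cin X) (0 : X ⟶ (0 : M)) ((coneIso W X).inv ≫ ccoll X)
      (0 : (0 : M) ⟶ X ⊗ S M) := by
  let _ := cofCatM W
  refine (isPushout_ccoll X (isZero_zero M) 0 0).of_iso (Iso.refl _) (coneIso W X) (Iso.refl _)
    (Iso.refl _) ?_ ?_ ?_ ?_
  · rw [base_coneIso]
    exact (Category.id_comp _).symm
  · simp
  · simp
  · simp

/-- the suspension -/
noncomputable def suspIso (X : M) : letI := cofCatM W; CofCat.Susp.obj X ≅ X ⊗ S M :=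
  letI := cofCatM W
  (CofCat.isPushout_cpr X).isoIsPushout _ _ (isPushout_cin W X)

theorem cpr_suspIso (X : M) : letI := cofCatM W
    CofCat.cpr X ≫ (suspIso W X).hom = (coneIso W X).inv ≫ ccoll X :=
  letI := cofCatM W
  (CofCat.isPushout_cpr X).inl_isoIsPushout_hom _ _ (isPushout_cin W X)

/-- the suspension functor -/
noncomputable def suspNat : letI := cofCatM W; CofCat.Susp ≅ tensorRight (S M) :=
  letI := cofCatM W
  NatIso.ofComponents (suspIso W) fun {X Y} f => by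
    apply CofCat.susp_hom_ext
    change _ = CofCat.cpr X ≫ (suspIso W X).hom ≫ f ▷ S M
    rw [← CofCat.cpr_naturality_assoc, cpr_suspIso, ← Category.assoc (CofCat.cpr X), cpr_suspIso,
      Category.assoc, Iso.eq_inv_comp, ← Category.assoc, ← coneIso_nat, Category.assoc,
      Iso.hom_inv_id_assoc, ccoll, ccoll, whisker_exchange]

end

variable (GG : ObjectProperty M) [IsTest GG] {C : Type u'} [Category.{v'} C] (Q : M ⥤ C)
  [Q.IsLocalization (piW GG)]

/-- the augmentation -/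
noncomputable def aug {A B : M} (e : A ⊗ B ≅ U M) : tensorLeft B ⋙ tensorLeft A ⋙ Q ≅ Q :=
  haveI : ∀ X : M, IsIso (Q.map (lamU M ▷ X ≫ (λ_ X).hom)) := fun X =>
    Localization.inverts Q (piW GG) _ (piW_lam X)
  NatIso.ofComponents (fun X => Q.mapIso ((α_ A B X).symm ≪≫ whiskerRightIso e X) ≪≫
    asIso (Q.map (lamU M ▷ X ≫ (λ_ X).hom))) fun {X Y} f => by
      change Q.map (A ◁ B ◁ f) ≫ Q.map ((α_ A B Y).inv ≫ e.hom ▷ Y) ≫ Q.map _ =
        (Q.map ((α_ A B X).inv ≫ e.hom ▷ X) ≫ Q.map _) ≫ Q.map f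
      simp only [← Q.map_comp, Category.assoc]
      rw [associator_inv_naturality_right_assoc, whisker_exchange_assoc, whisker_exchange_assoc,
        leftUnitor_naturality]

include GG in
theorem exists_E : ∃ _ : HasShift C ℤ,
    Nonempty (tensorLeft (S M) ⋙ Q ≅ Q ⋙ shiftFunctor C (1 : ℤ)) := by
  have h1 : (piW GG).IsInvertedBy (tensorLeft (S M) ⋙ Q) := fun _ _ f hf =>
    Localization.inverts Q (piW GG) _ ((piW_whiskerLeft_S f).2 hf)
  have h2 : (piW GG).IsInvertedBy (tensorLeft (StabInput.L : M) ⋙ Q) := fun _ _ f hf =>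
    Localization.inverts Q (piW GG) _ ((piW_whiskerLeft_L f).2 hf)
  let E := Localization.lift _ h1 Q
  let E' := Localization.lift _ h2 Q
  let a : Q ⋙ E ≅ _ := Localization.fac _ h1 Q
  let b : Q ⋙ E' ≅ _ := Localization.fac _ h2 Q
  obtain ⟨s, ⟨e⟩⟩ := exists_shift E E'
    (Localization.liftNatIso Q (piW GG) (Q ⋙ E ⋙ E') Q (E ⋙ E') (𝟭 C)
      ((Functor.associator _ _ _).symm ≪≫ Functor.isoWhiskerRight a E' ≪≫
        Functor.associator _ _ _ ≪≫ Functor.isoWhiskerLeft _ b ≪≫ aug GG Q (Iso.refl _)))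
    (Localization.liftNatIso Q (piW GG) (Q ⋙ E' ⋙ E) Q (E' ⋙ E) (𝟭 C)
      ((Functor.associator _ _ _).symm ≪≫ Functor.isoWhiskerRight b E ≪≫
        Functor.associator _ _ _ ≪≫ Functor.isoWhiskerLeft _ a ≪≫ aug GG Q (β_ _ _)))
  exact ⟨s, ⟨a.symm ≪≫ Functor.isoWhiskerLeft Q e.symm⟩⟩

include GG in
theorem exists_tau : ∃ _ : HasShift C ℤ,
    Nonempty (tensorLeft (S M) ⋙ Q ≅ Q ⋙ shiftFunctor C (1 : ℤ)) ∧
      letI := cofCatM (piW GG); Nonempty (CofCat.Susp ⋙ Q ≅ Q ⋙ shiftFunctor C (1 : ℤ)) := by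
  obtain ⟨s, ⟨e⟩⟩ := exists_E GG Q
  exact ⟨s, ⟨e⟩, ⟨Functor.isoWhiskerRight (suspNat (piW GG) ≪≫
    (BraidedCategory.tensorLeftIsoTensorRight (S M)).symm) Q ≪≫ e⟩⟩

include GG Q in
theorem pre : Nonempty (Preadditive C) := by
  obtain ⟨s, -, ⟨τ⟩⟩ := exists_tau GG Q
  let _ := cofCatM (piW GG)
  have : Q.IsLocalization (CofCat.W (C := M)) := inferInstanceAs (Q.IsLocalization (piW GG))
  exact ⟨locPreadditive τ⟩

include GG in
theorem tri [Preadditive C] : ∃ (_ : HasZeroObject C) (_ : HasShift C ℤ)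
    (_ : ∀ n : ℤ, (shiftFunctor C n).Additive) (_ : Pretriangulated C), A3 Q := by
  obtain ⟨s, ⟨e⟩, ⟨τ⟩⟩ := exists_tau GG Q
  let _ := cofCatM (piW GG)
  have : Q.IsLocalization (CofCat.W (C := M)) := inferInstanceAs (Q.IsLocalization (piW GG))
  have h0 := locHasZeroObject Q
  have h1 := locShift_additive (L := Q)
  let P := locPretriangulated τ
  refine ⟨h0, s, h1, P, locIsTriangulated τ, fun A => ⟨e.app A⟩, fun A => ⟨?_⟩,
    fun {X Y Z} f k i h => ?_⟩
  · exact ((shiftFunctorCompIsoId C (1 : ℤ) (-1) (by simp)).app _).symm ≪≫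
      (shiftFunctor C (-1 : ℤ)).mapIso ((e.app _).symm ≪≫ (aug GG Q (β_ _ _)).app A)
  · have hP : IsPushout f (CofCat.cin X) i ((coneIso (piW GG) X).inv ≫ k) := by
      refine h.flip.of_iso (Iso.refl _) (Iso.refl _) (coneIso (piW GG) X) (Iso.refl _) ?_ ?_ ?_ ?_
      · simp
      · rw [base_coneIso]
        exact (Category.id_comp _).symm
      · simp
      · simp
    exact ⟨_, locCone_distinguished τ f hP (d := hP.desc 0 (CofCat.cpr X) (by simp))
      (hP.inl_desc _ _ _) (hP.inr_desc _ _ _)⟩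

end Vale.Agent.P241GT
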